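import Vale.Agent.P047.Defs
import Vale.Agent.P047.Tournament
import Vale.Agent.P047.LTF

namespace Vale.Agent.Results.P047.SquareRootDichotomy

open Vale.Agent.P047

theorem result :
    (∀ d : ℕ, 2 ≤ d → M d ≤ 17 / 18 * d) ∧
    ((∀ d : ℕ, 1 ≤ d → M d ≤ Real.sqrt d) ∨
      ∃ ε : ℝ, 0 < ε ∧ ∀ᶠ d : ℕ in Filter.atTop, (d : ℝ) ^ (1 / 2 + ε) ≤ M d) ∧
    ((∃ C : ℝ, ∀ (n : ℕ) (f : (Fin n → ℤˣ) → ℝ), IsBoolean f →
        linearSum f ≤ C * Real.sqrt (degree f)) ↔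
      ∀ (n : ℕ) (f : (Fin n → ℤˣ) → ℝ), IsBoolean f →
        linearSum f ≤ Real.sqrt (degree f)) ∧
    7 / 4 ≤ M 4 ∧
    (∀ (n : ℕ) (f : (Fin n → ℤˣ) → ℝ), IsBoolean f →
      ∀ (D m : ℕ) (c : Fin m → ℝ) (A : Fin m → Finset (Fin n)) (z : Fin m → Fin n → ℤˣ) (τ : ℝ),
        (τ = 1 ∨ τ = -1) → (∀ j, 0 ≤ c j) → (∀ j, (A j).card ≤ D) →
        (∀ x, (1 + τ * f x) / 2 = ∑ j, c j * (if ∀ i ∈ A j, x i = z j i then 1 else 0)) →
        |linearSum f| ≤ 2 * Real.sqrt (D / Real.exp 1)) ∧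
    (∀ (n : ℕ) (f : (Fin n → ℤˣ) → ℝ), IsBoolean f →
      ∀ (w : Fin n → ℝ) (θ : ℝ), (∀ x, f x = 1 ↔ θ ≤ ∑ i, w i * ((x i : ℤ) : ℝ)) →
        |linearSum f| ≤ Real.sqrt (2 * degree f)) := by
  refine ⟨fun d hd => upper_bound hd, dichotomy, weak_iff_strong, M_four, ?_, ?_⟩
  · intro n f hf D m c A z τ hτ hc hA h
    rw [linearSum_eq]
    exact conical_bound hf Finset.univ c (fun j _ => hc j) A z (fun j _ => hA j) τ hτ
      (fun x => (h x).trans (Finset.sum_congr rfl fun j _ => by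
        unfold cube; split_ifs <;> rfl))
  · intro n f hf w θ h
    rw [linearSum_eq]
    exact ltf_bound hf w θ h ((degree_le_iff f (degree f)).mp le_rfl)

end Vale.Agent.Results.P047.SquareRootDichotomy
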