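import Vale.Agent.P047.Defs
import Vale.Agent.P047.Dichotomy
import Vale.Agent.P047X.Final

namespace Vale.Agent.Results.P047.SquareRootFalse

open Vale.Agent.P047

theorem result :
    (¬ ∃ C : ℝ, ∀ (n : ℕ) (f : (Fin n → ℤˣ) → ℝ), IsBoolean f →
      linearSum f ≤ C * Real.sqrt (degree f)) ∧
    (∃ (n : ℕ) (f : (Fin n → ℤˣ) → ℝ), IsBoolean f ∧ Real.sqrt (degree f) < linearSum f) ∧
    (∃ ε : ℝ, 0 < ε ∧ ∀ᶠ d : ℕ in Filter.atTop, (d : ℝ) ^ (1 / 2 + ε) ≤ M d) ∧
    (∀ d : ℕ, 2 ≤ d → M d ≤ 17 / 18 * d) := by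
  have hweak := P047X.weak_false
  have hstrong : ∃ (n : ℕ) (f : (Fin n → ℤˣ) → ℝ), IsBoolean f ∧ Real.sqrt (degree f) < linearSum f := by
    by_contra h
    push Not at h
    exact hweak ⟨1, fun n f hf => by simpa using h n f hf⟩
  refine ⟨hweak, hstrong, ?_, fun d hd => upper_bound hd⟩
  rcases dichotomy with h | h
  · exfalso
    apply hweak
    refine ⟨1, fun n f hf => ?_⟩
    rw [one_mul]
    rcases Nat.eq_zero_or_pos n with hn | hn
    · subst hn
      have : linearSum f = 0 := by
        rw [linearSum]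
        exact Finset.sum_eq_zero fun i _ => i.elim0
      rw [this]
      exact Real.sqrt_nonneg _
    · rcases Nat.eq_zero_or_pos (degree f) with h0 | h0
      · have h1 : DegLE f 0 := (degree_le_iff f 0).mp (by omega)
        have h2 : lin f = 0 := by
          rw [lin]
          exact Finset.sum_eq_zero fun i _ => h1 {i} (by simp)
        rw [linearSum_eq, h2]
        exact Real.sqrt_nonneg _
      · rw [linearSum_eq]
        exact (le_M hn hf ((degree_le_iff f (degree f)).mp le_rfl)).trans (h _ h0)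
  · exact h

end Vale.Agent.Results.P047.SquareRootFalse
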