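import Vale.Agent.P047.Defs
import Vale.Agent.P047.Growth
import Vale.Agent.P047X.Final

namespace Vale.Agent.Results.P047.SquareRootGrowth

open Vale.Agent.P047

theorem result :
    (¬ ∃ C : ℝ, ∀ (n : ℕ) (f : (Fin n → ℤˣ) → ℝ), IsBoolean f →
        linearSum f ≤ C * Real.sqrt (degree f)) ∧
    (¬ ∃ C : ℝ, ∀ d : ℕ, 1 ≤ d → M d ≤ C * Real.sqrt d) ∧
    (∃ α : ℝ, 1 / 2 < α ∧ α ≤ 1 ∧ (∀ d : ℕ, 1 ≤ d → M d ≤ (d : ℝ) ^ α) ∧
      Filter.Tendsto (fun d : ℕ => Real.log (M d) / Real.log d) Filter.atTop (nhds α)) ∧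
    ∀ d : ℕ, 2 ≤ d → M d ≤ 17 / 18 * d := by
  have h0 := P047X.weak_false
  refine ⟨h0, ?_, growth h0, fun d hd => upper_bound hd⟩
  rintro ⟨C, hC⟩
  apply h0
  refine ⟨|C|, fun n f hf => ?_⟩
  rw [linearSum_eq]
  have hdeg : DegLE f (degree f) := (degree_le_iff f _).mp le_rfl
  rcases Nat.eq_zero_or_pos (degree f) with h1 | h1
  · have h2 : DegLE f 0 := (degree_le_iff f 0).mp (by omega)
    have h3 : lin f = 0 := by
      rw [lin]
      exact Finset.sum_eq_zero fun i _ => h2 {i} (by simp)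
    rw [h3]
    positivity
  · rcases Nat.eq_zero_or_pos n with hn | hn
    · subst hn
      have h3 : lin f = 0 := by rw [lin]; simp
      rw [h3]
      positivity
    · exact (le_M hn hf hdeg).trans ((hC _ h1).trans
        (mul_le_mul_of_nonneg_right (le_abs_self C) (Real.sqrt_nonneg _)))

end Vale.Agent.Results.P047.SquareRootGrowth
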